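import Vale.Agent.P309.H362.Defs

/-!
# P309: the number of samples which a learner really reads
-/

open MeasureTheory ProbabilityTheory
open scoped ENNReal RealInnerProductSpace

namespace P309

variable {E : Type} [NormedAddCommGroup E] [InnerProductSpace ℝ E] [FiniteDimensional ℝ E]
  [MeasurableSpace E] [BorelSpace E] {N : ℕ}

/-- Probability that a learner which is in state `q` after `t` samples does not decide to stop after
any of the next `n` samples (independent standard Gaussian rows with exact labels for the signal
`s`). -/
noncomputable def Learner.alive (L : Learner E N) : ℕ → ℕ → Fin N → E → ℝ≥0∞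
  | 0, _, _, _ => 1
  | n + 1, t, q, s => ∫⁻ x, ∫⁻ p, (if p.1 = true then 0 else L.alive n (t + 1) p.2 s)
      ∂(L.step t (q, x, ⟪x, s⟫)) ∂(stdGaussian E)

/-- Probability that a learner which is in state `q` after `t` samples decides to stop after one of
the next `n` samples and then outputs a vector at angle at most `ε` from `s`. -/
noncomputable def Learner.hit (L : Learner E N) (ε : ℝ) : ℕ → ℕ → Fin N → E → ℝ≥0∞
  | 0, _, _, _ => 0
  | n + 1, t, q, s => ∫⁻ x, ∫⁻ p, (if p.1 = true then L.good ε (t + 1) p.2 s
      else L.hit ε n (t + 1) p.2 s) ∂(L.step t (q, x, ⟪x, s⟫)) ∂(stdGaussian E)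

/-- `P(τ > n)`, where `τ` (possibly infinite) is the number of samples which the learner reads until
it decides to stop, and the signal is uniformly random. -/
noncomputable def Learner.tail (L : Learner E N) (n : ℕ) : ℝ≥0∞ :=
  ∫⁻ s, ∫⁻ q, L.alive n 0 q (s : E) ∂L.init ∂(unifSphere E)

/-- The expected number `E[min(τ, T)]` of samples which the learner reads with horizon `T`
(`min(τ, T)` is the sum over `n < T` of the indicators of `τ > n`). -/
noncomputable def Learner.meanSamples (L : Learner E N) (T : ℕ) : ℝ≥0∞ :=
  ∑ n ∈ Finset.range T, L.tail n

/-- The expected number `E[τ]` of samples which the learner reads without any horizon. -/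
noncomputable def Learner.meanSamplesInf (L : Learner E N) : ℝ≥0∞ :=
  ∑' n, L.tail n

/-- The success probability without any horizon: the probability that the learner decides to stop at
some time and then outputs a vector at angle at most `ε` from the (uniformly random) signal. -/
noncomputable def Learner.successInf (L : Learner E N) (ε : ℝ) : ℝ≥0∞ :=
  ⨆ n, ∫⁻ s, ∫⁻ q, L.hit ε n 0 q (s : E) ∂L.init ∂(unifSphere E)

end P309
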