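import Vale.Agent.P309.H700.Defs
import Vale.Agent.P309.H362.Main
import Vale.Agent.P309.H596.Unlim

/-!
# P309: the number of samples which a learner really reads, lower bounds
-/

open MeasureTheory ProbabilityTheory Metric Set Filter
open scoped ENNReal NNReal RealInnerProductSpace

namespace P309.F700

open P309.LMS

variable {d N : ℕ}

/-- Expectation after one more sample. -/
noncomputable def opr (L : Learner (Vec d) N) (t : ℕ) (q : Fin N) (s : Vec d)
    (f : Bool × Fin N → ℝ≥0∞) : ℝ≥0∞ :=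
  ∫⁻ x, ∫⁻ p, f p ∂(L.step t (q, x, ⟪x, s⟫)) ∂(stdGaussian (Vec d))

lemma opr_mono (L : Learner (Vec d) N) (t : ℕ) (q : Fin N) (s : Vec d)
    {f g : Bool × Fin N → ℝ≥0∞} (h : ∀ p, f p ≤ g p) : opr L t q s f ≤ opr L t q s g :=
  lintegral_mono fun _ => lintegral_mono fun p => h p

lemma opr_one (L : Learner (Vec d) N) (t : ℕ) (q : Fin N) (s : Vec d) :
    opr L t q s (fun _ => 1) = 1 := by
  simp [opr]

lemma measurable_opr (L : Learner (Vec d) N) (t : ℕ) (q : Fin N)
    {f : Vec d → Bool × Fin N → ℝ≥0∞} (hf : ∀ p, Measurable fun s => f s p) :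
    Measurable fun s => opr L t q s (f s) := by
  have h : (fun s => opr L t q s (f s)) = fun s =>
      ∫⁻ x, ∑ o, f s o * L.wt t q o (x, ⟪x, s⟫) ∂(stdGaussian (Vec d)) := by
    funext s
    apply lintegral_congr
    intro x
    rw [lintegral_fintype]
    rfl
  rw [h]
  refine Measurable.lintegral_prod_right' (f := fun p : Vec d × Vec d =>
    ∑ o, f p.1 o * L.wt t q o (p.2, ⟪p.2, p.1⟫)) ?_
  apply Finset.measurable_sum
  intro o _
  apply Measurable.mul
  · exact (hf o).comp measurable_fst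
  · exact (L.measurable_wt t q o).comp (by fun_prop)

lemma opr_add (L : Learner (Vec d) N) (t : ℕ) (q : Fin N) (s : Vec d)
    (f g : Bool × Fin N → ℝ≥0∞) :
    opr L t q s (fun p => f p + g p) = opr L t q s f + opr L t q s g := by
  unfold opr
  rw [← lintegral_add_left]
  · apply lintegral_congr
    intro x
    exact lintegral_add_left (Measurable.of_discrete) _
  · have h : (fun x : Vec d => ∫⁻ p, f p ∂(L.step t (q, x, ⟪x, s⟫))) = fun x =>
        ∑ o, f o * L.wt t q o (x, ⟪x, s⟫) := by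
      funext x
      rw [lintegral_fintype]
      rfl
    rw [h]
    apply Finset.measurable_sum
    intro o _
    apply Measurable.mul measurable_const
    exact (L.measurable_wt t q o).comp (by fun_prop)

lemma alive_succ (L : Learner (Vec d) N) (n t : ℕ) (q : Fin N) (s : Vec d) :
    L.alive (n + 1) t q s =
      opr L t q s (fun p => if p.1 = true then 0 else L.alive n (t + 1) p.2 s) := rfl

lemma hit_succ (L : Learner (Vec d) N) (ε : ℝ) (n t : ℕ) (q : Fin N) (s : Vec d) :
    L.hit ε (n + 1) t q s = opr L t q s (fun p => if p.1 = true then L.good ε (t + 1) p.2 s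
      else L.hit ε n (t + 1) p.2 s) := rfl

lemma win_succ (L : Learner (Vec d) N) (ε : ℝ) (n t : ℕ) (q : Fin N) (s : Vec d) :
    L.win ε (n + 1) t q s = opr L t q s (fun p => if p.1 = true then L.good ε (t + 1) p.2 s
      else L.win ε n (t + 1) p.2 s) := rfl

lemma measurable_alive (L : Learner (Vec d) N) (n t : ℕ) (q : Fin N) :
    Measurable (L.alive n t q) := by
  induction n generalizing t q with
  | zero =>
    have h : L.alive 0 t q = fun _ => 1 := rfl
    rw [h]
    exact measurable_const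
  | succ n ih =>
    have h : L.alive (n + 1) t q = fun s =>
        opr L t q s (fun p => if p.1 = true then 0 else L.alive n (t + 1) p.2 s) := rfl
    rw [h]
    apply measurable_opr
    intro p
    by_cases hp : p.1 = true
    · simp only [hp, if_true]
      exact measurable_const
    · simp only [hp]
      exact ih (t + 1) p.2

lemma alive_succ_le (L : Learner (Vec d) N) (n t : ℕ) (q : Fin N) (s : Vec d) :
    L.alive (n + 1) t q s ≤ L.alive n t q s := by
  induction n generalizing t q with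
  | zero =>
    rw [alive_succ]
    calc _ ≤ opr L t q s (fun _ => 1) := opr_mono L t q s fun p => by
          by_cases hp : p.1 = true
          · simp [hp]
          · simp [hp, Learner.alive]
      _ = 1 := opr_one L t q s
  | succ n ih =>
    rw [alive_succ, alive_succ L n]
    apply opr_mono
    intro p
    by_cases hp : p.1 = true
    · simp [hp]
    · simp only [hp]
      exact ih (t + 1) p.2

lemma alive_le_one (L : Learner (Vec d) N) (n t : ℕ) (q : Fin N) (s : Vec d) :
    L.alive n t q s ≤ 1 := by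
  induction n with
  | zero => exact le_rfl
  | succ n ih => exact (alive_succ_le L n t q s).trans ih

lemma hit_le_one (L : Learner (Vec d) N) (ε : ℝ) (n t : ℕ) (q : Fin N) (s : Vec d) :
    L.hit ε n t q s ≤ 1 := by
  induction n generalizing t q with
  | zero => exact zero_le_one
  | succ n ih =>
    rw [hit_succ]
    calc _ ≤ opr L t q s (fun _ => 1) := opr_mono L t q s fun p => by
          by_cases hp : p.1 = true
          · simp only [hp, if_true]
            exact L.good_le_one ε _ _ s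
          · simp only [hp]
            exact ih _ _
      _ = 1 := opr_one L t q s

/-- Success with horizon `k ≥ n` means success with horizon `n` or reading more than `n` samples. -/
lemma win_le (L : Learner (Vec d) N) (ε : ℝ) {n k : ℕ} (hnk : n ≤ k) (t : ℕ) (q : Fin N)
    (s : Vec d) : L.win ε k t q s ≤ L.win ε n t q s + L.alive n t q s := by
  induction n generalizing k t q with
  | zero => exact (L.win_le_one ε k t q s).trans le_add_self
  | succ n ih =>
    obtain ⟨k, rfl⟩ : ∃ k', k = k' + 1 := ⟨k - 1, by omega⟩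
    rw [win_succ, win_succ, alive_succ, ← opr_add]
    apply opr_mono
    intro p
    by_cases hp : p.1 = true
    · simp [hp]
    · simp only [hp]
      exact ih (by omega) (t + 1) p.2

/-- The same without horizon. -/
lemma hit_le (L : Learner (Vec d) N) (ε : ℝ) (n k : ℕ) (t : ℕ) (q : Fin N)
    (s : Vec d) : L.hit ε k t q s ≤ L.win ε n t q s + L.alive n t q s := by
  induction n generalizing k t q with
  | zero => exact (hit_le_one L ε k t q s).trans le_add_self
  | succ n ih =>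
    rcases Nat.eq_zero_or_pos k with rfl | hk
    · exact zero_le
    obtain ⟨k, rfl⟩ : ∃ k', k = k' + 1 := ⟨k - 1, by omega⟩
    rw [hit_succ, win_succ, alive_succ, ← opr_add]
    apply opr_mono
    intro p
    by_cases hp : p.1 = true
    · simp [hp]
    · simp only [hp]
      exact ih k (t + 1) p.2

lemma lintegral_add_aux (L : Learner (Vec d) N) (ε : ℝ) (n : ℕ) :
    ∫⁻ s : Sph d, ∫⁻ q, (L.win ε n 0 q (s : Vec d) + L.alive n 0 q (s : Vec d)) ∂L.init
      ∂(unifSphere (Vec d)) = L.successProb n ε + L.tail n := by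
  unfold Learner.successProb Learner.tail Learner.successAt
  rw [← lintegral_add_left]
  · apply lintegral_congr
    intro s
    exact lintegral_add_left (Measurable.of_discrete) _
  · have h : (fun s : Sph d => ∫⁻ q, L.win ε n 0 q (s : Vec d) ∂L.init) = fun s : Sph d =>
        ∑ q, L.win ε n 0 q (s : Vec d) * L.init {q} := by
      funext s
      rw [lintegral_fintype]
    rw [h]
    apply Finset.measurable_sum
    intro q _
    exact ((L.measurable_win ε n 0 q).comp measurable_subtype_coe).mul measurable_const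

lemma successProb_le (L : Learner (Vec d) N) (ε : ℝ) {n k : ℕ} (hnk : n ≤ k) :
    L.successProb k ε ≤ L.successProb n ε + L.tail n := by
  rw [← lintegral_add_aux]
  exact lintegral_mono fun s => lintegral_mono fun q => win_le L ε hnk 0 q s

lemma successInf_le (L : Learner (Vec d) N) (ε : ℝ) (n : ℕ) :
    L.successInf ε ≤ L.successProb n ε + L.tail n := by
  rw [← lintegral_add_aux]
  exact iSup_le fun k => lintegral_mono fun s => lintegral_mono fun q => hit_le L ε n k 0 q s

lemma tail_antitone (L : Learner (Vec d) N) : Antitone L.tail :=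
  antitone_nat_of_succ_le fun n =>
    lintegral_mono fun s => lintegral_mono fun q => alive_succ_le L n 0 q s

lemma mul_tail_le (L : Learner (Vec d) N) (n : ℕ) :
    ((n + 1 : ℕ) : ℝ≥0∞) * L.tail n ≤ L.meanSamples (n + 1) := by
  calc ((n + 1 : ℕ) : ℝ≥0∞) * L.tail n = ∑ _j ∈ Finset.range (n + 1), L.tail n := by
        rw [Finset.sum_const, Finset.card_range, nsmul_eq_mul]
    _ ≤ ∑ j ∈ Finset.range (n + 1), L.tail j :=
        Finset.sum_le_sum fun j hj => tail_antitone L (by simpa [Nat.lt_succ_iff] using hj)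

lemma meanSamples_mono (L : Learner (Vec d) N) {n T : ℕ} (h : n ≤ T) :
    L.meanSamples n ≤ L.meanSamples T :=
  Finset.sum_le_sum_of_subset (Finset.range_subset_range.2 h)

lemma meanSamples_le_inf (L : Learner (Vec d) N) (n : ℕ) :
    L.meanSamples n ≤ L.meanSamplesInf :=
  ENNReal.sum_le_tsum _

lemma exists_index {B : ℝ} (hB : 0 < B) : ∃ n : ℕ, (n : ℝ) < B ∧ B ≤ ((n + 1 : ℕ) : ℝ) := by
  have h1 : 0 < ⌈B⌉₊ := Nat.ceil_pos.2 hB
  refine ⟨⌈B⌉₊ - 1, ?_, ?_⟩
  · rw [← Nat.lt_ceil]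
    omega
  · have h2 : ⌈B⌉₊ - 1 + 1 = ⌈B⌉₊ := by omega
    rw [h2]
    exact Nat.le_ceil B

/-- With horizon. -/
theorem mul_le_meanSamples (L : Learner (Vec d) N) {ε B : ℝ} {δ : ℝ≥0∞}
    (h : ∀ T : ℕ, (T : ℝ) < B → L.successProb T ε ≤ δ) (T : ℕ) :
    ENNReal.ofReal B * (L.successProb T ε - δ) ≤ L.meanSamples T := by
  rcases le_or_gt B 0 with hB | hB
  · rw [ENNReal.ofReal_of_nonpos hB, zero_mul]
    exact zero_le
  rcases lt_or_ge (T : ℝ) B with hT | hT
  · rw [tsub_eq_zero_of_le (h T hT), mul_zero]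
    exact zero_le
  obtain ⟨n, hn, hn'⟩ := exists_index hB
  have h1 : (n : ℝ) < T := hn.trans_le hT
  have h2 : n + 1 ≤ T := by exact_mod_cast h1
  calc ENNReal.ofReal B * (L.successProb T ε - δ) ≤ ((n + 1 : ℕ) : ℝ≥0∞) * L.tail n := by
        gcongr
        · rw [← ENNReal.ofReal_natCast]
          exact ENNReal.ofReal_le_ofReal hn'
        · rw [tsub_le_iff_left]
          exact (successProb_le L ε (n := n) (by omega)).trans (by gcongr; exact h n hn)
    _ ≤ L.meanSamples (n + 1) := mul_tail_le L n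
    _ ≤ L.meanSamples T := meanSamples_mono L h2

/-- Without horizon, the tail. -/
theorem successInf_le_tail (L : Learner (Vec d) N) {ε B : ℝ} {δ : ℝ≥0∞}
    (h : ∀ T : ℕ, (T : ℝ) < B → L.successProb T ε ≤ δ) {n : ℕ} (hn : (n : ℝ) < B) :
    L.successInf ε ≤ L.tail n + δ := by
  refine (successInf_le L ε n).trans ?_
  rw [add_comm]
  gcongr
  exact h n hn

/-- Without horizon. -/
theorem mul_le_meanSamplesInf (L : Learner (Vec d) N) {ε B : ℝ} {δ : ℝ≥0∞}
    (h : ∀ T : ℕ, (T : ℝ) < B → L.successProb T ε ≤ δ) :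
    ENNReal.ofReal B * (L.successInf ε - δ) ≤ L.meanSamplesInf := by
  rcases le_or_gt B 0 with hB | hB
  · rw [ENNReal.ofReal_of_nonpos hB, zero_mul]
    exact zero_le
  obtain ⟨n, hn, hn'⟩ := exists_index hB
  calc ENNReal.ofReal B * (L.successInf ε - δ) ≤ ((n + 1 : ℕ) : ℝ≥0∞) * L.tail n := by
        gcongr
        · rw [← ENNReal.ofReal_natCast]
          exact ENNReal.ofReal_le_ofReal hn'
        · rw [tsub_le_iff_right]
          exact successInf_le_tail L h hn
    _ ≤ L.meanSamples (n + 1) := mul_tail_le L n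
    _ ≤ L.meanSamplesInf := meanSamples_le_inf L _

/-- **Strong converse** with explicit constants. -/
theorem converse_expl {C : ℝ} (hC : 0 < C) {d : ℕ} (hd : 32768 ≤ d) {ε : ℝ} (hε : 0 < ε)
    (hεe : ε ≤ Real.exp (-(4 * ((60 + 23 * C) + 4)))) {N : ℕ}
    (hNC : (N : ℝ) ≤ (2:ℝ) ^ (C * (d:ℝ) ^ 2)) (L : Learner (Vec d) N) (T : ℕ)
    (hcon : (T : ℝ) < 1 / (64 * (60 + 23 * C)) * d * Real.log (1 / ε)) :
    ∫⁻ s : Sph d, ∫⁻ q, L.win ε T 0 q (s : Vec d) ∂L.init ∂(unifSphere (Vec d)) ≤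
      ENNReal.ofReal (Real.exp (-((d : ℝ) / 16))) := by
  have hC₂pos : (0 : ℝ) < 60 + 23 * C := by positivity
  have hN : 1 ≤ N := by
    rcases Nat.eq_zero_or_pos N with h0 | h0
    · subst h0
      have h1 : L.init univ = 1 := measure_univ
      have h2 : (univ : Set (Fin 0)) = ∅ := Subsingleton.elim _ _
      rw [h2, measure_empty] at h1
      exact absurd h1 zero_ne_one
    · exact h0
  obtain ⟨Λ, hΛdef⟩ : ∃ Λ : ℝ, Λ = Real.log (1 / ε) := ⟨_, rfl⟩
  rw [← hΛdef] at hcon
  have hlogε : Real.log ε = -Λ := by rw [hΛdef, one_div, Real.log_inv]; ring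
  have hΛ : 4 * ((60 + 23 * C) + 4) ≤ Λ := by
    have := Real.log_le_log hε hεe
    rw [Real.log_exp, hlogε] at this
    linarith only [this]
  have hΛpos : 0 < Λ := by linarith only [hC, hΛ]
  have hd' : (32768 : ℝ) ≤ d := by exact_mod_cast hd
  have hT : (T : ℝ) < d * Λ / (64 * (60 + 23 * C)) := by
    calc (T : ℝ) < 1 / (64 * (60 + 23 * C)) * d * Λ := hcon
      _ = d * Λ / (64 * (60 + 23 * C)) := by ring
  rcases lt_or_ge ((2 * C + 6) * (d : ℝ)) Λ with hbig | hsmall
  · refine (L.success_le_vol (by omega) ε hε T).trans ?_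
    have h2 : ((T : ℝ≥0∞) + 1) * (N * ENNReal.ofReal (6 ^ d * ε ^ (d - 1))) =
        ENNReal.ofReal (N * (T + 1) * (6 ^ d * ε ^ (d - 1))) := by
      have hx : (0 : ℝ) ≤ 6 ^ d * ε ^ (d - 1) := by positivity
      generalize (6 : ℝ) ^ d * ε ^ (d - 1) = x at hx ⊢
      rw [ENNReal.ofReal_mul (by (clear * - hN; positivity)), ENNReal.ofReal_mul (by positivity),
        ENNReal.ofReal_natCast, ENNReal.ofReal_add (by positivity) (by norm_num),
        ENNReal.ofReal_natCast, ENNReal.ofReal_one]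
      ring
    rw [h2]
    exact ENNReal.ofReal_le_ofReal (vol_regime hC hd' hε hlogε hN hNC hT hbig)
  · obtain ⟨n, hn⟩ : ∃ n : ℕ, n = d / 8 := ⟨_, rfl⟩
    have hn8 : 8 * n ≤ d := by omega
    have hn8' : d < 8 * n + 8 := by omega
    have hn1 : 1 ≤ n := by omega
    have hnr : (8 : ℝ) * n ≤ d := by exact_mod_cast hn8
    have hnr' : (d : ℝ) < 8 * n + 8 := by exact_mod_cast hn8'
    have hn16 : (d : ℝ) / 16 ≤ n := by linarith only [hd', hnr']
    obtain ⟨hTJ, hJr⟩ := numeric_blocks (60 + 23 * C) hC₂pos d n T Λ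
      (by linarith only [hd']) hn1 hn16 hΛpos hT
    obtain ⟨J, hJ⟩ : ∃ J : ℕ, J = T / n + 1 := ⟨_, rfl⟩
    rw [← hJ] at hTJ hJr
    have hJ2d : (J : ℝ) ≤ 2 * d := by
      have h1 : Λ / (4 * (60 + 23 * C)) ≤ d := by
        rw [div_le_iff₀ (by positivity)]
        calc Λ ≤ (2 * C + 6) * d := hsmall
          _ ≤ d * (4 * (60 + 23 * C)) := by nlinarith only [hC, hd']
      linarith only [hd', hJr, h1]
    obtain ⟨m, hm⟩ : ∃ m : ℕ, m = ⌈16 * C * d⌉₊ + 1 := ⟨_, rfl⟩
    have hmr : (m : ℝ) ≤ 16 * C * d + 2 := by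
      rw [hm]
      push_cast
      have := Nat.ceil_lt_add_one (by positivity : (0 : ℝ) ≤ 16 * C * d)
      linarith only [this]
    have hη : 0 < Real.exp (-((d : ℝ) / 8)) := Real.exp_pos _
    have hη1 : Real.exp (-((d : ℝ) / 8)) ≤ 1 := by
      rw [Real.exp_le_one_iff]
      linarith only [hd']
    have hmem := numeric_mem C d n hn16 N hNC
    rw [← hm] at hmem
    have hmem' : N * (n + 1) ≤ 2 ^ (m * n) := by exact_mod_cast hmem
    rw [hn] at hTJ hmem'
    refine (L.success_le_block (by omega) ε hε hN T J m hTJ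
      (ENNReal.ofReal (Real.exp (-((d : ℝ) / 8)))) (by simpa using hη) (by simpa using hη1)
      hmem').trans ?_
    rw [← hn]
    generalize hηdef : Real.exp (-((d : ℝ) / 8)) = η at hη hη1 ⊢
    have h2 : (J : ℝ≥0∞) * (8 * ENNReal.ofReal η +
        ENNReal.ofReal (Real.exp (-(n : ℝ)))) +
        gam d n m (ENNReal.ofReal η) ^ J *
          ENNReal.ofReal (6 ^ d * ε ^ (d - 1 - (3 * n + 3))) =
        ENNReal.ofReal (J * (8 * η + Real.exp (-(n : ℝ))) +
       (4 * 10 ^ (10 * d + 17 * n) * (1 / η) ^ 11 * 4 ^ m) ^ J *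
        (6 ^ d * ε ^ (d - 1 - (3 * n + 3)))) := by
      unfold gam
      have hx : (0 : ℝ) ≤ 6 ^ d * ε ^ (d - 1 - (3 * n + 3)) := by positivity
      generalize (6 : ℝ) ^ d * ε ^ (d - 1 - (3 * n + 3)) = x at hx ⊢
      have hy : (0 : ℝ) ≤ Real.exp (-(n : ℝ)) := by positivity
      generalize Real.exp (-(n : ℝ)) = y at hy ⊢
      rw [ENNReal.ofReal_add (by (clear * - hη hy; positivity)) (by positivity),
        ENNReal.ofReal_mul (by positivity),
        ENNReal.ofReal_natCast, ENNReal.ofReal_add (by positivity) (by positivity),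
        ENNReal.ofReal_mul (by norm_num), ENNReal.ofReal_mul (by positivity),
        ENNReal.ofReal_pow (by positivity),
        ENNReal.ofReal_mul (by positivity), ENNReal.ofReal_mul (by positivity),
        ENNReal.ofReal_mul (by positivity), ENNReal.ofReal_pow (by positivity),
        ENNReal.ofReal_pow (by positivity), ENNReal.ofReal_pow (by positivity),
        one_div, ENNReal.ofReal_inv_of_pos hη]
      simp only [ENNReal.ofReal_ofNat]
    rw [h2]
    apply ENNReal.ofReal_le_ofReal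
    have her : (d : ℝ) / 2 ≤ (d - 1 - (3 * n + 3) : ℕ) := by
      rw [Nat.cast_sub (by (clear * - hd hn; omega)), Nat.cast_sub (by omega)]
      push_cast
      linarith only [hd', hnr]
    have h3 := err_le (J := J) hd' hnr' hJ2d
    rw [hηdef] at h3
    have hA := logA_le (m := m) hC hd' hnr hmr
    rw [hηdef] at hA
    have h4 := main_le hC₂pos (J := J) hd' hε hlogε hΛ
      (A := 4 * 10 ^ (10 * d + 17 * n) * (1 / η) ^ 11 * 4 ^ m) (by positivity) hA hJr her
    linarith only [h3, h4]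


/-- The strong converse for all `M ≤ d² log (1/ε) / 6000`. -/
theorem converse_all {d M : ℕ} (hd : 32768 ≤ d) {ε : ℝ} (hε : 0 < ε) (hεe : ε ≤ Real.exp (-360))
    (hM : (M : ℝ) ≤ (d : ℝ) ^ 2 * Real.log (1 / ε) / 6000) (L : Learner (Vec d) (2 ^ M)) (T : ℕ)
    (hT : (T : ℝ) < d * Real.log (1 / ε) / (6000 * (1 + M / (d : ℝ) ^ 2))) :
    L.successProb T ε ≤ ENNReal.ofReal (Real.exp (-((d : ℝ) / 16))) := by
  have hd' : (32768 : ℝ) ≤ d := by exact_mod_cast hd
  have hd0 : (0 : ℝ) < d := by linarith only [hd']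
  set x : ℝ := M / (d : ℝ) ^ 2 with hx
  set Λ : ℝ := Real.log (1 / ε) with hΛ
  have hx0 : 0 ≤ x := by positivity
  have hlogε : Real.log ε = -Λ := by rw [hΛ, one_div, Real.log_inv]; ring
  have hΛ360 : 360 ≤ Λ := by
    have := Real.log_le_log hε hεe
    rw [Real.log_exp, hlogε] at this
    linarith only [this]
  have hxΛ : x ≤ Λ / 6000 := by
    rw [hx, div_le_iff₀ (by positivity)]
    calc (M : ℝ) ≤ (d : ℝ) ^ 2 * Λ / 6000 := hM
      _ = Λ / 6000 * (d : ℝ) ^ 2 := by ring
  refine converse_expl (C := x + 1) (by positivity) hd hε ?_ ?_ L T ?_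
  · rw [← Real.log_le_iff_le_exp hε, hlogε]
    linarith only [hxΛ, hΛ360]
  · push_cast
    rw [← Real.rpow_natCast 2 M]
    apply Real.rpow_le_rpow_of_exponent_le (by norm_num)
    have h1 : x * (d : ℝ) ^ 2 = M := by
      rw [hx]; field_simp
    nlinarith only [h1, sq_nonneg (d : ℝ)]
  · refine hT.trans_le ?_
    have e : 1 / (64 * (60 + 23 * (x + 1))) * d * Λ = d * Λ / (64 * (60 + 23 * (x + 1))) := by
      ring
    rw [e]
    apply div_le_div_of_nonneg_left (by positivity) (by positivity)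
    linarith only [hx0]

lemma exp_le_sixth {d : ℕ} (hd : 32768 ≤ d) : Real.exp (-((d : ℝ) / 16)) ≤ 1 / 6 := by
  have hd' : (32768 : ℝ) ≤ d := by exact_mod_cast hd
  have h1 : Real.exp (-((d : ℝ) / 16)) ≤ Real.exp (-3) := by
    apply Real.exp_le_exp.2
    linarith only [hd']
  have h2 : Real.exp (-3) ≤ 1 / 6 := by
    rw [Real.exp_neg, one_div]
    apply inv_anti₀ (by norm_num)
    have h3 := Real.add_one_le_exp (1 : ℝ)
    have h4 : Real.exp 3 = Real.exp 1 ^ 3 := by
      rw [← Real.exp_nat_mul]; norm_num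
    rw [h4]
    have h5 : (2 : ℝ) ^ 3 ≤ Real.exp 1 ^ 3 := by
      gcongr
      linarith only [h3]
    linarith only [h5]
  exact h1.trans h2

lemma half_le {B : ℝ} {δ : ℝ} (hδ : δ ≤ 1 / 6) {p a : ℝ≥0∞} (hp : 2 / 3 ≤ p)
    (h : ENNReal.ofReal B * (p - ENNReal.ofReal δ) ≤ a) : ENNReal.ofReal (B / 2) ≤ a := by
  refine le_trans ?_ h
  rcases le_or_gt B 0 with hB | hB
  · rw [ENNReal.ofReal_of_nonpos (by linarith only [hB])]
    exact zero_le
  have h1 : ENNReal.ofReal (1 / 2) ≤ p - ENNReal.ofReal δ := by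
    apply ENNReal.le_sub_of_add_le_right ENNReal.ofReal_ne_top
    calc ENNReal.ofReal (1 / 2) + ENNReal.ofReal δ ≤ ENNReal.ofReal (1 / 2) + ENNReal.ofReal (1 / 6) := by
          gcongr
      _ = 2 / 3 := by
          rw [← ENNReal.ofReal_add (by norm_num) (by norm_num)]
          norm_num
          rw [ENNReal.ofReal_div_of_pos (by norm_num)]
          norm_num
      _ ≤ p := hp
  calc ENNReal.ofReal (B / 2) = ENNReal.ofReal B * ENNReal.ofReal (1 / 2) := by
        rw [← ENNReal.ofReal_mul hB.le]; congr 1; ring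
    _ ≤ _ := by gcongr

/-- If the success probability is at least `2/3`. -/
lemma third_le {B β γ : ℝ} (hβ : 0 ≤ β) (hγ : 0 ≤ γ) (hβγ : β + γ ≤ 2 / 3) {p a : ℝ≥0∞}
    (hp : 2 / 3 ≤ p) (h : ENNReal.ofReal B * (p - ENNReal.ofReal β) ≤ a) :
    ENNReal.ofReal (B * γ) ≤ a := by
  refine le_trans ?_ h
  rcases le_or_gt B 0 with hB | hB
  · rw [ENNReal.ofReal_of_nonpos (mul_nonpos_of_nonpos_of_nonneg hB hγ)]
    exact zero_le
  have h1 : ENNReal.ofReal γ ≤ p - ENNReal.ofReal β := by
    apply ENNReal.le_sub_of_add_le_right ENNReal.ofReal_ne_top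
    calc ENNReal.ofReal γ + ENNReal.ofReal β = ENNReal.ofReal (γ + β) := by
          rw [ENNReal.ofReal_add hγ hβ]
      _ ≤ ENNReal.ofReal (2 / 3) := ENNReal.ofReal_le_ofReal (by linarith only [hβγ])
      _ = 2 / 3 := by
          rw [ENNReal.ofReal_div_of_pos (by norm_num)]
          norm_num
      _ ≤ p := hp
  calc ENNReal.ofReal (B * γ) = ENNReal.ofReal B * ENNReal.ofReal γ := by
        rw [← ENNReal.ofReal_mul hB.le]
    _ ≤ _ := by gcongr

/-- The rate is dominated in both regimes. -/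
lemma rate_le {D W m : ℝ} (hD : 0 < D) (hW : 360 ≤ W) (hm : 0 ≤ m) :
    (m ≤ D ^ 2 * W / 6000 →
      D * (1 + D ^ 2 * W / (D ^ 2 + m)) / 10 ^ 6 ≤ D * W / (6000 * (1 + m / D ^ 2)) * (1 / 2)) ∧
    (D ^ 2 * W / 6000 < m → D * (1 + D ^ 2 * W / (D ^ 2 + m)) / 10 ^ 6 ≤ D / 100) := by
  have hD2 : 0 < D ^ 2 := by positivity
  have hs : 0 < D ^ 2 + m := by positivity
  constructor
  · intro h
    have e : D * W / (6000 * (1 + m / D ^ 2)) * (1 / 2) =
        D * (D ^ 2 * W / (D ^ 2 + m)) / 12000 := by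
      field_simp
      ring
    rw [e]
    have h1 : 1 ≤ D ^ 2 * W / (D ^ 2 + m) := by
      rw [le_div_iff₀ hs]
      nlinarith only [h, hW, hD2]
    have h2 : D * (1 + D ^ 2 * W / (D ^ 2 + m)) ≤ D * (2 * (D ^ 2 * W / (D ^ 2 + m))) := by
      gcongr
      linarith only [h1]
    have h3 : 0 ≤ D * (D ^ 2 * W / (D ^ 2 + m)) := by positivity
    linarith only [h2, h3]
  · intro h
    have h1 : D ^ 2 * W / (D ^ 2 + m) ≤ 6000 := by
      rw [div_le_iff₀ hs]
      linarith only [h, hD2]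
    have h2 : D * (1 + D ^ 2 * W / (D ^ 2 + m)) ≤ D * 6001 := by
      gcongr
      linarith only [h1]
    linarith only [h2, hD]

/-- Unlimited memory: the success probability below `d/6` samples. -/
lemma unlimited_le {M : ℕ} (hd : 32768 ≤ d) {ε : ℝ} (hε : 0 < ε) (hεe : ε ≤ 1 / 10)
    (L : Learner (Vec d) (2 ^ M)) (T : ℕ) (hT : (T : ℝ) < (d : ℝ) / 6) :
    L.successProb T ε ≤ ENNReal.ofReal (3 / 5) := by
  refine (P309.H596.successProb_unlimited (by omega) L hε.le (by linarith only [hεe]) T).trans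
    (ENNReal.ofReal_le_ofReal ?_)
  have hd0 : (0 : ℝ) < d := by exact_mod_cast (by omega : 0 < d)
  have h1 : 99 / 100 ≤ 1 - ε ^ 2 := by nlinarith only [hε, hεe]
  have h2 : (T : ℝ) / (2 * d * (1 - ε ^ 2)) ≤ 1 / 10 := by
    rw [div_le_iff₀ (by positivity)]
    nlinarith only [h1, hT, hd0]
  linarith only [h2]

/-- The rate of samples for every memory size. -/
theorem main :
    (∀ C₀ : ℝ, 0 < C₀ → ∃ c : ℝ, 0 < c ∧ ∃ d₀ : ℕ, ∃ ε₀ : ℝ, 0 < ε₀ ∧ ε₀ < 1 ∧
      ∀ d : ℕ, d₀ ≤ d → ∀ ε : ℝ, 0 < ε → ε ≤ ε₀ → ∀ M : ℕ, (M : ℝ) ≤ C₀ * (d : ℝ) ^ 2 →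
        ∀ (T : ℕ) (L : Learner (EuclideanSpace ℝ (Fin d)) (2 ^ M)), L.Succeeds T ε →
          c * d * Real.log (1 / ε) ≤ T) ∧
    (∀ d M : ℕ, ∀ ε R B δ : ℝ, 32768 ≤ d → 0 < ε → ε ≤ Real.exp (-360) →
      R = d * (1 + (d : ℝ) ^ 2 * Real.log (1 / ε) / ((d : ℝ) ^ 2 + M)) / 10 ^ 6 →
      B = d * Real.log (1 / ε) / (6000 * (1 + M / (d : ℝ) ^ 2)) → δ = Real.exp (-((d : ℝ) / 16)) →
        (∀ (T : ℕ) (L : Learner (EuclideanSpace ℝ (Fin d)) (2 ^ M)), L.Succeeds T ε →
          R ≤ T ∧ ENNReal.ofReal R ≤ L.meanSamples T) ∧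
        (∀ L : Learner (EuclideanSpace ℝ (Fin d)) (2 ^ M), 2 / 3 ≤ L.successInf ε →
          ENNReal.ofReal R ≤ L.meanSamplesInf) ∧
        ((M : ℝ) ≤ (d : ℝ) ^ 2 * Real.log (1 / ε) / 6000 →
          ∀ L : Learner (EuclideanSpace ℝ (Fin d)) (2 ^ M),
            (∀ T : ℕ, (T : ℝ) < B → L.successProb T ε ≤ ENNReal.ofReal δ ∧
              L.successInf ε ≤ L.tail T + ENNReal.ofReal δ) ∧
            (∀ T : ℕ, ENNReal.ofReal B * (L.successProb T ε - ENNReal.ofReal δ) ≤
              L.meanSamples T) ∧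
            ENNReal.ofReal B * (L.successInf ε - ENNReal.ofReal δ) ≤ L.meanSamplesInf) ∧
        ((M : ℝ) ≤ (d - 1) * Real.logb 2 (1 / ε) - 4 * d → leastHorizon d M ε = ⊤) ∧
        (∀ A : ℝ, 1 ≤ A → d * Real.logb 2 (1 / ε) + (15 + A) * d ≤ M →
          ∃ T : ℕ, leastHorizon d M ε = (T : ℕ∞) ∧ R ≤ T ∧
            (T : ℝ) ≤ 2 * 10 ^ 9 * d * (Real.log (1 / ε) +
              Real.log d * Real.log (1 + Real.log (1 / ε) / A))) ∧
        (d * Real.logb 2 (d / ε) + 11 * d ≤ M → ∃ T : ℕ, leastHorizon d M ε = (T : ℕ∞) ∧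
          R ≤ T ∧ (T : ℝ) ≤ 20 * d * Real.log (1 / ε))) := by
  have key : ∀ d M : ℕ, ∀ ε : ℝ, 32768 ≤ d → 0 < ε → ε ≤ Real.exp (-360) →
      (M : ℝ) ≤ (d : ℝ) ^ 2 * Real.log (1 / ε) / 6000 →
      ∀ (T : ℕ) (L : Learner (EuclideanSpace ℝ (Fin d)) (2 ^ M)), L.Succeeds T ε →
        d * Real.log (1 / ε) / (6000 * (1 + M / (d : ℝ) ^ 2)) ≤ T := by
    intro d M ε hd hε hεe hM T L hL
    by_contra hcon
    push Not at hcon
    have h1 := converse_all hd hε hεe hM L T hcon
    have h3 : (2 / 3 : ℝ≥0∞) ≤ ENNReal.ofReal (Real.exp (-((d : ℝ) / 16))) :=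
      le_trans hL h1
    have h5 : (2 / 3 : ℝ≥0∞) = ENNReal.ofReal (2 / 3) := by
      rw [ENNReal.ofReal_div_of_pos (by norm_num)]
      norm_num
    rw [h5] at h3
    have h6 := (ENNReal.ofReal_le_ofReal_iff (Real.exp_pos _).le).1 h3
    have h7 := exp_le_sixth hd
    linarith only [h6, h7]
  constructor
  · intro C₀ hC₀
    refine ⟨1 / (6000 * (1 + C₀)), by positivity, 32768,
      Real.exp (-(360 + 6000 * C₀)), Real.exp_pos _, by
        rw [Real.exp_lt_one_iff]; linarith only [hC₀], ?_⟩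
    intro d hd ε hε hεe M hM T L hL
    have hd' : (32768 : ℝ) ≤ d := by exact_mod_cast hd
    have hd0 : (0 : ℝ) < d := by linarith only [hd']
    have hlogε : Real.log ε = -Real.log (1 / ε) := by rw [one_div, Real.log_inv]; ring
    have hΛ : 360 + 6000 * C₀ ≤ Real.log (1 / ε) := by
      have := Real.log_le_log hε hεe
      rw [Real.log_exp, hlogε] at this
      linarith only [this]
    have h1 := key d M ε hd hε (hεe.trans (Real.exp_le_exp.2 (by linarith only [hC₀])))
      (by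
        rw [le_div_iff₀ (by norm_num)]
        nlinarith only [hM, hΛ, sq_nonneg (d : ℝ)]) T L hL
    refine le_trans ?_ h1
    have e : 1 / (6000 * (1 + C₀)) * d * Real.log (1 / ε) =
        d * Real.log (1 / ε) / (6000 * (1 + C₀)) := by ring
    rw [e]
    have hΛ0 : 0 ≤ Real.log (1 / ε) := by linarith only [hΛ, hC₀]
    apply div_le_div_of_nonneg_left (by positivity) (by positivity)
    have h2 : (M : ℝ) / (d : ℝ) ^ 2 ≤ C₀ := by
      rw [div_le_iff₀ (by positivity)]
      exact hM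
    linarith only [h2]
  · intro d M ε R B δ hd hε hεe hR hB hδ
    have hd0 : (0 : ℝ) < d := by exact_mod_cast (by omega : 0 < d)
    have hδ6 : δ ≤ 1 / 6 := hδ ▸ exp_le_sixth hd
    have hδ0 : 0 ≤ δ := hδ ▸ (Real.exp_pos _).le
    have hε10 : ε ≤ 1 / 10 := by
      refine hεe.trans ?_
      rw [Real.exp_neg, one_div]
      apply inv_anti₀ (by norm_num)
      have := Real.add_one_le_exp (360 : ℝ)
      linarith only [this]
    have hε2 : ε ≤ 1 / 2 := by linarith only [hε10]
    have hlogε : Real.log ε = -Real.log (1 / ε) := by rw [one_div, Real.log_inv]; ring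
    have hW : 360 ≤ Real.log (1 / ε) := by
      have := Real.log_le_log hε hεe
      rw [Real.log_exp, hlogε] at this
      linarith only [this]
    obtain ⟨hr1, hr2⟩ := rate_le hd0 hW (Nat.cast_nonneg (α := ℝ) M)
    rw [← hR] at hr1 hr2
    rw [← hB] at hr1
    have hconv : (M : ℝ) ≤ (d : ℝ) ^ 2 * Real.log (1 / ε) / 6000 →
        ∀ (L : Learner (EuclideanSpace ℝ (Fin d)) (2 ^ M)) (T : ℕ), (T : ℝ) < B →
        L.successProb T ε ≤ ENNReal.ofReal δ := by
      intro hM L T hT
      rw [hδ]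
      exact converse_all hd hε hεe hM L T (hB ▸ hT)
    have hun : ∀ (L : Learner (EuclideanSpace ℝ (Fin d)) (2 ^ M)) (T : ℕ),
        (T : ℝ) < (d : ℝ) / 6 → L.successProb T ε ≤ ENNReal.ofReal (3 / 5) :=
      fun L T hT => unlimited_le hd hε hε10 L T hT
    have hlow : ∀ (T : ℕ) (L : Learner (EuclideanSpace ℝ (Fin d)) (2 ^ M)), L.Succeeds T ε →
        R ≤ T := by
      intro T L hL
      rcases le_or_gt (M : ℝ) ((d : ℝ) ^ 2 * Real.log (1 / ε) / 6000) with hM | hM
      · have h1 := key d M ε hd hε hεe hM T L hL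
        rw [← hB] at h1
        have h2 := hr1 hM
        have h3 : (0 : ℝ) ≤ T := Nat.cast_nonneg T
        linarith only [h1, h2, h3]
      · have h1 := hr2 hM
        have h2 := P309.H596.unlimited (by omega) hε.le hε2 L hL
        linarith only [h1, h2, hd0]
    refine ⟨fun T L hL => ⟨hlow T L hL, ?_⟩, fun L hL => ?_, fun hM L =>
      ⟨fun T hT => ⟨hconv hM L T hT, successInf_le_tail L (hconv hM L) hT⟩,
        fun T => mul_le_meanSamples L (hconv hM L) T, mul_le_meanSamplesInf L (hconv hM L)⟩,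
      Upper.leastHorizon_eq_top d ε (by omega) hε M, ?_, ?_⟩
    · rcases le_or_gt (M : ℝ) ((d : ℝ) ^ 2 * Real.log (1 / ε) / 6000) with hM | hM
      · exact (ENNReal.ofReal_le_ofReal (hr1 hM)).trans (third_le hδ0 (by norm_num)
          (by linarith only [hδ6]) hL (mul_le_meanSamples L (hconv hM L) T))
      · refine (ENNReal.ofReal_le_ofReal (le_trans (hr2 hM) ?_)).trans
          (third_le (B := (d : ℝ) / 6) (β := 3 / 5) (γ := 1 / 15) (by norm_num) (by norm_num)
          (by norm_num) hL (mul_le_meanSamples L (hun L) T))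
        linarith only [hd0]
    · rcases le_or_gt (M : ℝ) ((d : ℝ) ^ 2 * Real.log (1 / ε) / 6000) with hM | hM
      · exact (ENNReal.ofReal_le_ofReal (hr1 hM)).trans (third_le hδ0 (by norm_num)
          (by linarith only [hδ6]) hL (mul_le_meanSamplesInf L (hconv hM L)))
      · refine (ENNReal.ofReal_le_ofReal (le_trans (hr2 hM) ?_)).trans
          (third_le (B := (d : ℝ) / 6) (β := 3 / 5) (γ := 1 / 15) (by norm_num) (by norm_num)
          (by norm_num) hL (mul_le_meanSamplesInf L (hun L)))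
        linarith only [hd0]
    · intro A hA hM'
      obtain ⟨T, hT, hL⟩ := upper_real (by omega) hε hε2 (M := M) hA hM'
      exact leastHorizon_of_learner hT
        (hL.imp fun L h => ⟨h.1, succeeds_of_forall (by omega) h.2⟩) hlow
    · intro hM'
      obtain ⟨T, hT, hT'⟩ := Upper.leastHorizon_le d ε (by omega) hε hε2 M hM'
      refine ⟨T, hT, ?_, hT'⟩
      obtain ⟨L, -, hL⟩ := leastHorizon_spec hT
      exact hlow T L hL

end P309.F700
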